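import Vale.Agent.P221X.EXI.Idem
import Vale.Agent.P221X.EXG.Glue
import Vale.Agent.P221.H246.BPC

/-!
# P221X, block EXIST: the input of the last step, maps to even modules

* `BIn i v B` : `B` is a module under `R` which is the quotient of `R` by `v` modulo `p`;
* `van_of_rb` : the maps of odd degree from the tensor powers of `R` to even modules vanish.
-/

open CategoryTheory MonoidalCategory Limits Pretriangulated

set_option linter.unusedSectionVars false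

universe u

noncomputable section

namespace Vale.Agent.P221X.EXI

open Vale.Agent.P251 Vale.Agent.P251.T Vale.Agent.P251.S Vale.Agent.P251.S.ModStr
  Vale.Agent.P251.M Vale.Agent.P221X.EXG

variable {T : Type u} [Category.{0} T] [Preadditive T] [HasZeroObject T] [HasShift T ℤ]
  [∀ n : ℤ, (shiftFunctor T n).Additive] [Pretriangulated T] [IsTriangulated T]
  [MonoidalCategory T] [SymmetricCategory T] [TensorTriangulated T] [MonoidalClosed T]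
  [HasCoproducts.{0} T] [HasProducts.{0} T] [StableCat T] {R : T} [MonObj R]

/-- `B` is a module under `R`, and modulo `p` it is the quotient of `R` by `v`. -/
structure BIn {M W₁ : T} (i : 𝟙_ T ⟶ M) (v : W₁ ⟶ R) (B : T) where
  mod : ModStr R B
  g : R ⟶ B
  lin : (self R).IsLinear mod g
  v_g : (self R).ext v ≫ g = 0
  surj : ∀ (k : ℤ) (y : (𝟙_ T)⟦k⟧ ⟶ B ⊗ M), ∃ u : (𝟙_ T)⟦k⟧ ⟶ R ⊗ M, u ≫ g ▷ M = y
  ker : ∀ (k : ℤ) (u : (𝟙_ T)⟦k⟧ ⟶ R ⊗ M), u ≫ g ▷ M = 0 →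
    ∃ z : (𝟙_ T)⟦k⟧ ⟶ (R ⊗ W₁) ⊗ M, u = z ≫ (self R).ext v ▷ M

/-- all maps from the even suspensions of `W` to `N` vanish -/
def ZE (W N : T) : Prop := ∀ (j : ℤ) (f : (stdEven T).S j ⊗ W ⟶ N), f = 0

theorem ZE.zero {W N : T} (h : ZE W N) (f : W ⟶ N) : f = 0 := by
  rw [← cancel_epi ((stdEven T).zero.inv ▷ W ≫ (λ_ W).hom), comp_zero]
  exact h 0 _

theorem ZE.of_odd {N : T} (h : OddZero N) : ZE ((𝟙_ T)⟦(1 : ℤ)⟧) N := fun j f => by
  let e : (𝟙_ T)⟦2 * j + 1⟧ ≅ (stdEven T).S j ⊗ (𝟙_ T)⟦(1 : ℤ)⟧ :=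
    (shiftFunctorAdd' T (2 * j) 1 (2 * j + 1) rfl).app _ ≪≫
      (shiftFunctor T (1 : ℤ)).mapIso ((stdEven T).sphIso (Iso.refl _) j).symm ≪≫ (tensorSph 1 _).symm
  rw [← cancel_epi e.hom, comp_zero]
  exact h _ ⟨j, rfl⟩ _

theorem ZE.tens {J : Type} (b : P093.Nak.RBasis (stdEven T) R R J) {W N : T} (m : ModStr R N)
    (h : ZE W N) : ZE (R ⊗ W) N := fun j f => by
  have hb : IsIso ((fr R R).ext (Sigma.desc b.w)) := (P093.Nak.isIso_desc_iff _ _).1 b.isIso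
  have h3 : KEq (𝟙_ T) ((fr R (R ⊗ ((stdEven T).S j ⊗ W))).ext
      (Sigma.desc b.w ▷ _ ≫ (α_ _ _ _).hom)) := by
    rw [ext_tensor]
    exact KEq.of_isIso _
  have hN : IsLocal (𝟙_ T) N := fun A hA f => (IsZero.of_iso hA (λ_ A).symm).eq_of_src _ _
  let e : R ⊗ ((stdEven T).S j ⊗ W) ≅ (stdEven T).S j ⊗ (R ⊗ W) :=
    (α_ _ _ _).symm ≪≫ whiskerRightIso (β_ _ _) W ≪≫ α_ _ _ _
  rw [← cancel_epi e.hom, comp_zero]
  refine (uct h3 m hN).1 ((isColimitOfPreserves (tensorRight ((stdEven T).S j ⊗ W))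
    (coproductIsCoproduct fun a => (stdEven T).S (b.k a))).hom_ext fun ⟨a⟩ => ?_)
  have h4 : ∀ x : (stdEven T).S (b.k a) ⊗ ((stdEven T).S j ⊗ W) ⟶ N, x = 0 := fun x => by
    rw [← cancel_epi (((stdEven T).mu (b.k a) j _ rfl).inv ▷ W ≫ (α_ _ _ _).hom), comp_zero]
    exact h _ _
  exact (h4 _).trans (h4 _).symm

theorem Van.of_ze {W N : T} (h : ZE (W ⊗ (𝟙_ T)⟦(1 : ℤ)⟧) N) : Van W N := fun f => by
  rw [← cancel_epi (tensorSph 1 W).hom, comp_zero]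
  exact h.zero _

theorem ZE.iso {W W' N : T} (h : ZE W N) (e : W' ≅ W) : ZE W' N := fun j f => by
  rw [← cancel_epi ((stdEven T).S j ◁ e.inv), comp_zero]
  exact h _ _

/-- **Maps of odd degree to even modules.** -/
theorem van_of_rb {J : Type} (b : P093.Nak.RBasis (stdEven T) R R J) {N : T} (m : ModStr R N)
    (h : OddZero N) : Van R N ∧ Van (R ⊗ R) N ∧ Van (R ⊗ (R ⊗ R)) N := by
  have h1 := (ZE.of_odd h).tens b m
  have h2 := h1.tens b m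
  have h3 := h2.tens b m
  exact ⟨Van.of_ze h1, Van.of_ze (h2.iso (α_ _ _ _)),
    Van.of_ze (h3.iso (α_ _ _ _ ≪≫ whiskerLeftIso R (α_ _ _ _)))⟩

/-- the same for the local quotients -/
theorem Quo.van {K : T} {Λ : LocFunctor K} {W₁ : T} {v : W₁ ⟶ R} (Q : Quo Λ v) {J : Type}
    (b : P093.Nak.RBasis (stdEven T) R R J) {N : T} (m : ModStr R N) (hN : IsLocal K N)
    (h : OddZero N) : Van Q.X N ∧ Van (R ⊗ (R ⊗ Q.X)) N := by
  obtain ⟨h1, -, h3⟩ := van_of_rb b m h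
  refine ⟨(h1.of_keq' (Λ.keq R) hN).retract Q.s Q.r Q.s_r,
    (h3.of_keq' (((Λ.keq R).whiskerLeft R).whiskerLeft R) hN).retract (R ◁ R ◁ Q.s)
      (R ◁ R ◁ Q.r) ?_⟩
  rw [← whiskerLeft_comp, ← whiskerLeft_comp, Q.s_r, whiskerLeft_id, whiskerLeft_id]

end Vale.Agent.P221X.EXI
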