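import Vale.Agent.P221X.EXQ.Rat
import Vale.Agent.P221X.EXI.Sat

/-!
# P221X, block EXIST: the last step

* `exists_K0` : the class of height zero;
* `BX.last` : the quotient exists, if it exists modulo `p` and after inverting `p`.
-/

open CategoryTheory MonoidalCategory Limits Pretriangulated

set_option linter.unusedSectionVars false

universe u

noncomputable section

namespace Vale.Agent.P221X.EXI

open Vale.Agent.P251 Vale.Agent.P251.T Vale.Agent.P251.S Vale.Agent.P251.M Vale.Agent.P251.I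
  Vale.Agent.P221X.EXG Vale.Agent.P221
open Vale.Agent.P221.H924 (rdM rdM_nat good_odd)

variable {T : Type u} [Category.{0} T] [Preadditive T] [HasZeroObject T] [HasShift T ℤ]
  [∀ n : ℤ, (shiftFunctor T n).Additive] [Pretriangulated T] [IsTriangulated T]
  [MonoidalCategory T] [SymmetricCategory T] [TensorTriangulated T] [MonoidalClosed T]
  [HasCoproducts.{0} T] [HasProducts.{0} T] [StableCat T] {p : ℕ}

/-- the class of height zero: the local objects are those on which `p` is invertible -/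
theorem exists_K0 (p : ℕ) : ∃ K : T, IsIso ((p : ℤ) • 𝟙 K) ∧
    ∀ Y : T, IsIso ((p : ℤ) • 𝟙 Y) → IsLocal K Y := by
  obtain ⟨M, i, δ, hM⟩ := H746.exists_moore (𝒯 := T) (p : ℤ)
  obtain ⟨U⟩ := exists_tel (X := fun _ : ℕ => 𝟙_ T) (fun _ => (p : ℤ) • 𝟙 (𝟙_ T))
  refine ⟨U.obj, H395.isIso_p_tel hM U, fun Y hY A hA f => ?_⟩
  have h1 : IsIso (Y ◁ rdM (U.ι 0) (𝟙_ T)) := keq_tel U hY _
  have h2 : IsZero (A ⊗ (𝟙_ T ⊗ U.obj)) :=
    IsZero.of_iso hA (whiskerLeftIso A (λ_ _) ≪≫ β_ _ _)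
  rw [← cancel_epi (ρ_ A).hom, ← cancel_mono (ρ_ Y).inv,
    ← cancel_mono (Y ◁ rdM (U.ι 0) (𝟙_ T)), comp_zero, zero_comp, zero_comp,
    ← rightUnitor_naturality, Category.assoc, Category.assoc, Iso.hom_inv_id_assoc,
    ← whisker_exchange, h2.eq_of_tgt (A ◁ _) 0, zero_comp]

theorem van_W1 {N : T} (h : OddZero N) : Van (W1 T p) N := fun f =>
  (isColimitOfPreserves (shiftFunctor T (1 : ℤ)) (coproductIsCoproduct (S1 T p))).hom_ext
    fun ⟨j⟩ => by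
      have h1 : Van (S1 T p j) N := Van.of_ze fun k g => by
        rw [← cancel_epi (((stdEven T).mu k _ _ rfl).inv ▷ _ ≫ (α_ _ _ _).hom), comp_zero]
        exact ZE.of_odd h _ _
      exact (h1 _).trans (h1 _).symm

variable {D : MUData T} [Fact p.Prime] {P : T} [MonObj P] [IsCommMonObj P]
  {b : D.R ⟶ P} [IsMonHom b] (X : BX p b)

/-- **The last step.** -/
theorem BX.last {M : T} {i : 𝟙_ T ⟶ M} {δ : M ⟶ (𝟙_ T)⟦(1 : ℤ)⟧}
    (hM : Triangle.mk ((p : ℤ) • 𝟙 (𝟙_ T)) i δ ∈ distTriang T) {B : T} (c : BIn i X.vv B) {K : T}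
    (hK1 : ∀ Y, ModStr P Y → IsIso ((p : ℤ) • 𝟙 Y) → IsLocal K Y) (hK2 : IsIso ((p : ℤ) • 𝟙 K))
    {Λ : LocFunctor K} (Q : Quo Λ X.vv) :
    ∃ (C : T) (m : ModStr P C) (q : P ⟶ C), IsQuo X.vv m q := by
  obtain ⟨C, c, h1, h2⟩ := c.exists_rat hM hK1 hK2 (H246.rbB X.hD X.mon) Q
    (by rintro _ ⟨k, rfl⟩ f; exact good_odd X.good hM k f) fun _ => van_W1
  obtain ⟨h3, h4⟩ := c.exact hM h1 h2 (good_tf X.good) (good_tf X.good_W) X.sat
  exact ⟨C, c.mod, c.g, c.lin, c.v_g, h3, fun k u hu => (h4 k u).1 hu⟩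

/-- the same, for the quotients at all classes on which `p` is invertible -/
theorem BX.last' {M : T} {i : 𝟙_ T ⟶ M} {δ : M ⟶ (𝟙_ T)⟦(1 : ℤ)⟧}
    (hM : Triangle.mk ((p : ℤ) • 𝟙 (𝟙_ T)) i δ ∈ distTriang T) {B : T} (c : BIn i X.vv B)
    (hQ : ∀ K : T, IsIso ((p : ℤ) • 𝟙 K) → ∃ Λ : LocFunctor K, Nonempty (Quo Λ X.vv)) :
    ∃ (C : T) (m : ModStr P C) (q : P ⟶ C), IsQuo X.vv m q := by
  obtain ⟨K, h1, h2⟩ := exists_K0 (T := T) p
  obtain ⟨Λ, ⟨Q⟩⟩ := hQ K h1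
  exact X.last hM c (fun Y _ => h2 Y) h1 Q

end Vale.Agent.P221X.EXI
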