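import Vale.Agent.P221X.EXQ.Last
import Vale.Agent.P221X.EXI.KeqT
import Vale.Agent.P251.Z.FinalA

/-!
# P221X, block EXIST: the quotient exists if it exists modulo `p`
-/

open CategoryTheory MonoidalCategory Limits Pretriangulated

set_option linter.unusedSectionVars false

universe u

noncomputable section

namespace Vale.Agent.P221X.EXI

open Vale.Agent.P251 Vale.Agent.P251.T Vale.Agent.P251.S Vale.Agent.P251.M Vale.Agent.P251.I
  Vale.Agent.P221

variable {T : Type u} [Category.{0} T] [Preadditive T] [HasZeroObject T] [HasShift T ℤ]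
  [∀ n : ℤ, (shiftFunctor T n).Additive] [Pretriangulated T] [IsTriangulated T]
  [MonoidalCategory T] [SymmetricCategory T] [TensorTriangulated T] [MonoidalClosed T]
  [HasCoproducts.{0} T] [HasProducts.{0} T] [StableCat T] {p : ℕ}
  {D : MUData T} [Fact p.Prime] {P : T} [MonObj P] [IsCommMonObj P]
  {b : D.R ⟶ P} [IsMonHom b] (X : BX p b)

/-- **The quotient exists if it exists modulo `p`.** -/
theorem BX.last0 {M : T} {i : 𝟙_ T ⟶ M} {δ : M ⟶ (𝟙_ T)⟦(1 : ℤ)⟧}
    (hM : Triangle.mk ((p : ℤ) • 𝟙 (𝟙_ T)) i δ ∈ distTriang T) {B : T} (c : BIn i X.vv B) :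
    ∃ (C : T) (m : ModStr P C) (q : P ⟶ C), IsQuo X.vv m q := by
  refine X.last' hM c fun K hK => ?_
  obtain ⟨Λ⟩ := Z.nonempty_locFunctor' K
  refine ⟨Λ, X.quo0 Λ ?_⟩
  have h1 : ((p : ℤ) • 𝟙 P) ▷ K = (p : ℤ) • (𝟙 P ▷ K) := (tensorRight K).map_zsmul
  rw [h1, id_whiskerRight]
  exact H395.isIso_p_map hK (tensorLeft P)

end Vale.Agent.P221X.EXI
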