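import Vale.Agent.P221X.EXQ.Defs
import Vale.Agent.P221.H924.Mod

/-!
# P221X, block EXIST: the arithmetic square

* `PInv p f` : `f` inverts `p` on the homotopy groups; `pinv_of_keq`;
* `BIn.exists_rat` : a module which is the quotient modulo `p` and after inverting `p`;
* `BIn.exact` : it is the quotient.
-/

open CategoryTheory MonoidalCategory Limits Pretriangulated

set_option linter.unusedSectionVars false

universe u

noncomputable section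

namespace Vale.Agent.P221X.EXI

open Vale.Agent.P251 Vale.Agent.P251.T Vale.Agent.P251.S Vale.Agent.P251.S.ModStr
  Vale.Agent.P251.M Vale.Agent.P251.Q Vale.Agent.P221X.EXG Vale.Agent.P221
open Vale.Agent.P221.H924 (rdM rdM_nat rdM_linear)

variable {T : Type u} [Category.{0} T] [Preadditive T] [HasZeroObject T] [HasShift T ℤ]
  [∀ n : ℤ, (shiftFunctor T n).Additive] [Pretriangulated T] [IsTriangulated T]
  [MonoidalCategory T] [SymmetricCategory T] [TensorTriangulated T] [MonoidalClosed T]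
  [HasCoproducts.{0} T] [HasProducts.{0} T] [StableCat T] {R : T} [MonObj R] {p : ℕ}

/-- `f` inverts `p` on the homotopy groups -/
structure PInv (p : ℕ) {Y Y' : T} (f : Y ⟶ Y') : Prop where
  surj : ∀ (k : ℤ) (y : (𝟙_ T)⟦k⟧ ⟶ Y'), ∃ (n : ℕ) (x : (𝟙_ T)⟦k⟧ ⟶ Y), (p : ℤ) ^ n • y = x ≫ f
  ker : ∀ (k : ℤ) (x : (𝟙_ T)⟦k⟧ ⟶ Y), x ≫ f = 0 → ∃ n : ℕ, (p : ℤ) ^ n • x = 0

theorem itr_p (X : T) (n : ℕ) : itr ((p : ℤ) • 𝟙 X) n = (p : ℤ) ^ n • 𝟙 X := by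
  induction n with
  | zero => rw [itr_zero, pow_zero, one_smul]
  | succ n ih =>
    rw [itr_succ, ih, Preadditive.zsmul_comp, Category.id_comp, smul_smul, pow_succ]

section tel

variable (U : Tel (X := fun _ : ℕ => 𝟙_ T) (fun _ => (p : ℤ) • 𝟙 (𝟙_ T)))

theorem pinv_tel (Y : T) : PInv p (rdM (U.ι 0) Y) := by
  have hc : ∀ k : ℤ, S.IsCpt ((𝟙_ T)⟦k⟧) := fun k _ X f => compact_sum X (isSphere_one_shift k) f
  refine ⟨fun k y => ?_, fun k x hx => ?_⟩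
  · obtain ⟨n, a, rfl⟩ := (U.tensL Y).exists_factor (hc k) y
    refine ⟨n, a ≫ (ρ_ Y).hom, ?_⟩
    have h1 : Y ◁ ((p : ℤ) ^ n • U.ι n) = (p : ℤ) ^ n • (Y ◁ U.ι n) := (tensorLeft Y).map_zsmul
    rw [rdM, Category.assoc, Iso.hom_inv_id_assoc, ← U.itr_ι_const n, itr_p,
      Preadditive.zsmul_comp, Category.id_comp, h1, Preadditive.comp_zsmul]
    rfl
  · obtain ⟨n, hn⟩ := (U.tensL Y).exists_eq_zero (n := 0) (hc k) (x ≫ (ρ_ Y).inv)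
      ((Category.assoc _ _ _).trans hx)
    refine ⟨n, ?_⟩
    rw [trT_const (X := Y ⊗ 𝟙_ T) (Y ◁ ((p : ℤ) • 𝟙 (𝟙_ T))) 0 n, ModP.whiskerLeft_zsmul_id,
      itr_p, Preadditive.comp_zsmul, Category.comp_id, ← Preadditive.zsmul_comp] at hn
    rw [← cancel_mono (ρ_ Y).inv, hn, zero_comp]

theorem keq_tel {K : T} (hK : IsIso ((p : ℤ) • 𝟙 K)) (Y : T) : KEq K (rdM (U.ι 0) Y) := by
  have h1 : IsIso (K ◁ ((p : ℤ) • 𝟙 (𝟙_ T))) := by
    rw [ModP.whiskerLeft_zsmul_id]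
    exact H395.isIso_p_map hK (tensorRight (𝟙_ T))
  have h2 : KEq K (U.ι 0) := Tel.isIso_const (X := K ⊗ 𝟙_ T) (U.tensL K)
  exact (KEq.of_isIso _).comp (h2.whiskerLeft Y)

end tel

theorem isIso_p_of_local {K Y : T} (hK : IsIso ((p : ℤ) • 𝟙 K)) (hY : IsLocal K Y) :
    IsIso ((p : ℤ) • 𝟙 Y) := by
  have h1 : KEq K ((p : ℤ) • 𝟙 Y) := by
    rw [KEq, ModP.whiskerLeft_zsmul_id]
    exact H395.isIso_p_map hK (tensorRight Y)
  have h2 := h1.comp_ext hY (𝟙 Y)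
  refine ⟨h1.ext hY (𝟙 Y), h2, ?_⟩
  rw [Preadditive.zsmul_comp, Category.id_comp] at h2
  rw [Preadditive.comp_zsmul, Category.comp_id, h2]

variable {M W₁ : T} {i : 𝟙_ T ⟶ M} {δ : M ⟶ (𝟙_ T)⟦(1 : ℤ)⟧} {v : W₁ ⟶ R}
  (hM : Triangle.mk ((p : ℤ) • 𝟙 (𝟙_ T)) i δ ∈ distTriang T)

/-- transport along an isomorphism modulo `p` -/
def BIn.trans {B C : T} (b : BIn i v B) (m : ModStr R C) (q : R ⟶ C) (lin : (self R).IsLinear m q)
    (v_q : (self R).ext v ≫ q = 0) (e : C ⊗ M ≅ B ⊗ M) (he : q ▷ M ≫ e.hom = b.g ▷ M) :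
    BIn i v C where
  mod := m
  g := q
  lin := lin
  v_g := v_q
  surj k y := by
    obtain ⟨u, hu⟩ := b.surj k (y ≫ e.hom)
    exact ⟨u, by rw [← cancel_mono e.hom, Category.assoc, he, hu]⟩
  ker k u hu := b.ker k u (by rw [← he, reassoc_of% hu, zero_comp])

include hM

theorem BIn.exists_even {B : T} (b : BIn i v B) (ho : OddZero (R ⊗ M)) :
    ∃ (B' : T) (_ : BIn i v B'), OddZero B' := by
  obtain ⟨B', c, hB, hc⟩ := H395.exists_completion hM B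
  obtain ⟨m, hm⟩ := H395.exists_modStr hM b.mod c hc hB
  let b' := b.trans m (b.g ≫ c) (b.lin.comp hm) (by rw [reassoc_of% b.v_g, zero_comp])
    (asIso (c ▷ M)).symm (by simp)
  refine ⟨B', b', fun n hn f => hB.hom_eq_zero_of_mod hM (fun g => ?_) f⟩
  obtain ⟨u, rfl⟩ := b'.surj n g
  rw [ho n hn u, zero_comp]

section rat

variable {K : T} (hK1 : ∀ Y, ModStr R Y → IsIso ((p : ℤ) • 𝟙 Y) → IsLocal K Y)
  (hK2 : IsIso ((p : ℤ) • 𝟙 K))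

include hK1 hK2

theorem pinv_of_keq {Y Y' : T} (m : ModStr R Y) {f : Y ⟶ Y'} (hf : KEq K f) (hY : IsLocal K Y') :
    PInv p f := by
  obtain ⟨U⟩ := exists_tel (X := fun _ : ℕ => 𝟙_ T) (fun _ => (p : ℤ) • 𝟙 (𝟙_ T))
  have h1 : IsLocal K (Y ⊗ U.obj) := hK1 _ (m.tensorRight _)
    (H395.isIso_p_map (H395.isIso_p_tel hM U) (tensorLeft Y))
  have h2 := keq_tel U hK2 Y
  have h3 := hf.comp_ext h1 (rdM (U.ι 0) Y)
  have h4 := h2.comp_ext hY f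
  have h5 : hf.ext h1 (rdM (U.ι 0) Y) ≫ h2.ext hY f = 𝟙 Y' :=
    hf.hom_ext hY (by rw [reassoc_of% h3, h4, Category.comp_id])
  refine ⟨fun k y => ?_, fun k x hx => (pinv_tel U Y).ker k x ?_⟩
  · obtain ⟨n, x, hx⟩ := (pinv_tel U Y).surj k (y ≫ hf.ext h1 (rdM (U.ι 0) Y))
    refine ⟨n, x, ?_⟩
    rw [← h4, ← Category.assoc, ← hx, Preadditive.zsmul_comp, Category.assoc, h5,
      Category.comp_id]
  · rw [← h3, reassoc_of% hx, zero_comp]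

/-- **The arithmetic square.** -/
theorem BIn.exists_rat {J : Type} (rb : P093.Nak.RBasis (stdEven T) R R J) {Λ : LocFunctor K}
    (Q : Quo Λ v) {B : T} (b : BIn i v B) (ho : OddZero (R ⊗ M))
    (hW : ∀ N : T, OddZero N → Van W₁ N) :
    ∃ (C : T) (c : BIn i v C),
      (∀ (k : ℤ) (y : (𝟙_ T)⟦k⟧ ⟶ C), ∃ (n : ℕ) (x : (𝟙_ T)⟦k⟧ ⟶ R), (p : ℤ) ^ n • y = x ≫ c.g) ∧
      ∀ (k : ℤ) (x : (𝟙_ T)⟦k⟧ ⟶ R), x ≫ c.g = 0 →
        ∃ (n : ℕ) (z : (𝟙_ T)⟦k⟧ ⟶ R ⊗ W₁), (p : ℤ) ^ n • x = z ≫ (self R).ext v := by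
  obtain ⟨B, b, hB⟩ := b.exists_even hM ho
  obtain ⟨U⟩ := exists_tel (X := fun _ : ℕ => 𝟙_ T) (fun _ => (p : ℤ) • 𝟙 (𝟙_ T))
  have hp := H395.isIso_p_map (H395.isIso_p_tel hM U) (tensorLeft B)
  have h1 : IsLocal K (B ⊗ U.obj) := hK1 _ (b.mod.tensorRight _) hp
  have h2 : OddZero (B ⊗ U.obj) := fun n hn y => by
    obtain ⟨a, x, hx⟩ := (pinv_tel U B).surj n y
    rw [hB n hn x, zero_comp] at hx
    have h3 : IsIso (itr ((p : ℤ) • 𝟙 (B ⊗ U.obj)) a) := by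
      clear hx
      induction a with
      | zero => exact inferInstanceAs (IsIso (𝟙 _))
      | succ a ih => exact IsIso.comp_isIso' ih hp
    rw [← cancel_mono (itr ((p : ℤ) • 𝟙 (B ⊗ U.obj)) a), itr_p, Preadditive.comp_zsmul,
      Category.comp_id, hx, zero_comp]
  obtain ⟨f, hf, hq⟩ := Q.exists_desc h1 (b.mod.tensorRight _) (b.lin.comp (rdM_linear b.mod))
    (by rw [reassoc_of% b.v_g, zero_comp])
  obtain ⟨H⟩ := exists_hpb (rdM (U.ι 0) B) f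
  have h3 : KEq K H.i' := H.keq' (keq_tel U hK2 B)
  obtain ⟨h4, h5⟩ := Q.van rb (b.mod.tensorRight _) h1 h2
  obtain ⟨m, hm, hm'⟩ := H.exists_mod (rdM_linear b.mod) hf (h4.of_keq h3 h1)
    (h5.of_keq ((h3.whiskerLeft R).whiskerLeft R) h1)
  obtain ⟨q, lin, hq1, hq2⟩ := H.exists_lin hm hm' b.lin Q.q_lin hq.symm
    (van_of_rb rb (b.mod.tensorRight _) h2).2.1
  have h6 : IsIso ((tensorRight M).map f) :=
    ⟨0, ((H395.isIso_p_iff hM _).1 (isIso_p_of_local hK2 Q.loc)).eq_of_src _ _,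
      ((H395.isIso_p_iff hM _).1 hp).eq_of_src _ _⟩
  have h7 : IsIso (H.i ▷ M) := by
    have h8 := (H.map (tensorRight M)).isIso_i
    rwa [H.map_i] at h8
  have hu := pinv_of_keq hM hK1 hK2 (self R) (Λ.keq R) (Λ.isLocal R)
  have hw := pinv_of_keq hM hK1 hK2 (fr R W₁) (Λ.keq _) (Λ.isLocal _)
  have hi := pinv_of_keq hM hK1 hK2 m h3 Q.loc
  have hv : (self R).ext v ≫ q = 0 := by
    have h9 : ∀ {Y : T} {g : R ⟶ Y}, (self R).ext v ≫ g = 0 → v ≫ g = 0 := fun h => by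
      rw [← (self R).unitMap_ext v, Category.assoc, h, comp_zero]
    have h8 : v ≫ q = 0 := H.eq_zero_of_van (hW _ h2) _
      (by rw [Category.assoc, hq1, h9 b.v_g]) (by rw [Category.assoc, hq2, h9 Q.v_q])
    rw [ext_comp _ _ _ _ lin, h8, ModStr.ext, MonoidalPreadditive.whiskerLeft_zero, zero_comp]
  refine ⟨H.P, b.trans m q lin hv (asIso (H.i ▷ M))
    (by rw [asIso_hom, ← comp_whiskerRight, hq1]), fun k y => ?_, fun k x hx => ?_⟩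
  · obtain ⟨n, x, hx⟩ := hu.surj k (y ≫ H.i' ≫ Q.s)
    obtain ⟨a, ha⟩ := hi.ker k ((p : ℤ) ^ n • y - x ≫ q) (by
      rw [Preadditive.sub_comp, Category.assoc, hq2, Quo.q, ← reassoc_of% hx,
        Preadditive.zsmul_comp, Preadditive.zsmul_comp]
      simp only [Category.assoc, Q.s_r, Category.comp_id, sub_self])
    refine ⟨a + n, (p : ℤ) ^ a • x, ?_⟩
    rw [smul_sub, sub_eq_zero] at ha
    rw [pow_add, mul_smul, ha, Preadditive.zsmul_comp]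
    rfl
  · have h8 : x ≫ Λ.u R ≫ Q.r = 0 := by
      have h9 : x ≫ q = 0 := hx
      rw [← Quo.q, ← hq2, reassoc_of% h9, zero_comp]
    obtain ⟨n, z, hz⟩ := hw.surj k (x ≫ Λ.u R ≫ Q.β)
    obtain ⟨a, ha⟩ := hu.ker k ((p : ℤ) ^ n • x - z ≫ (self R).ext v) (by
      rw [Preadditive.sub_comp, Category.assoc, ← Λ.u_naturality ((self R).ext v), ← reassoc_of% hz,
        Preadditive.zsmul_comp, Preadditive.zsmul_comp, Category.assoc, Category.assoc,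
        eq_sub_of_add_eq' Q.r_s, Preadditive.comp_sub, Preadditive.comp_sub, reassoc_of% h8,
        zero_comp, sub_zero, Category.comp_id, sub_self])
    refine ⟨a + n, (p : ℤ) ^ a • z, ?_⟩
    rw [smul_sub, sub_eq_zero] at ha
    rw [pow_add, mul_smul, ha, Preadditive.zsmul_comp]

end rat

theorem lift_of_tf {X : T} (tf : ∀ (k : ℤ) (x : (𝟙_ T)⟦k⟧ ⟶ X), (p : ℤ) • x = 0 → x = 0) (k : ℤ)
    (f : (𝟙_ T)⟦k⟧ ⟶ X ⊗ M) : ∃ a : (𝟙_ T)⟦k⟧ ⟶ X, f = a ≫ rdM i X :=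
  ModP.exists_lift hM (ModP.torsionFree_shift
    ((shiftFunctorAdd' T (k - 1) 1 k (by ring)).app _) (tf (k - 1))) f

/-- **From the quotient modulo `p` and the rational quotient to the quotient.** -/
theorem BIn.exact {C : T} (c : BIn i v C)
    (hs : ∀ (k : ℤ) (y : (𝟙_ T)⟦k⟧ ⟶ C), ∃ (n : ℕ) (x : (𝟙_ T)⟦k⟧ ⟶ R),
      (p : ℤ) ^ n • y = x ≫ c.g)
    (hk : ∀ (k : ℤ) (x : (𝟙_ T)⟦k⟧ ⟶ R), x ≫ c.g = 0 →
      ∃ (n : ℕ) (z : (𝟙_ T)⟦k⟧ ⟶ R ⊗ W₁), (p : ℤ) ^ n • x = z ≫ (self R).ext v)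
    (tfR : ∀ (k : ℤ) (x : (𝟙_ T)⟦k⟧ ⟶ R), (p : ℤ) • x = 0 → x = 0)
    (tfW : ∀ (k : ℤ) (x : (𝟙_ T)⟦k⟧ ⟶ R ⊗ W₁), (p : ℤ) • x = 0 → x = 0)
    (sat : ∀ (k : ℤ) (x : (𝟙_ T)⟦k⟧ ⟶ R) (z : (𝟙_ T)⟦k⟧ ⟶ R ⊗ W₁),
      (p : ℤ) • x = z ≫ (self R).ext v → ∃ z' : (𝟙_ T)⟦k⟧ ⟶ R ⊗ W₁, x = z' ≫ (self R).ext v) :
    (∀ (k : ℤ) (y : (𝟙_ T)⟦k⟧ ⟶ C), ∃ x : (𝟙_ T)⟦k⟧ ⟶ R, x ≫ c.g = y) ∧
      ∀ (k : ℤ) (x : (𝟙_ T)⟦k⟧ ⟶ R), x ≫ c.g = 0 ↔
        ∃ z : (𝟙_ T)⟦k⟧ ⟶ R ⊗ W₁, x = z ≫ (self R).ext v := by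
  have tfC : ∀ (k : ℤ) (y : (𝟙_ T)⟦k⟧ ⟶ C), (p : ℤ) • y = 0 → y = 0 := fun k =>
    H746.torsionFree_of_lift hM fun f => by
      let e := (shiftFunctorAdd' T k 1 (k + 1) rfl).app (𝟙_ T)
      obtain ⟨u, hu⟩ := c.surj (k + 1) (e.hom ≫ f)
      obtain ⟨a, rfl⟩ := lift_of_tf hM tfR _ u
      refine ⟨e.inv ≫ a ≫ c.g, ?_⟩
      rw [Category.assoc, ← rdM_nat] at hu
      rw [← e.inv_hom_id_assoc f, ← hu, rdM]
      simp only [Category.assoc]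
  refine ⟨fun k y => ?_, fun k x => ⟨fun hx => ?_, ?_⟩⟩
  · obtain ⟨n, x, hx⟩ := hs k y
    induction n generalizing x with
    | zero => exact ⟨x, by rw [← hx, pow_zero, one_smul]⟩
    | succ n ih =>
      obtain ⟨z, hz⟩ := c.ker k (x ≫ rdM i R) (by
        rw [Category.assoc, ← rdM_nat, ← reassoc_of% hx, pow_succ', mul_smul]
        exact ModP.zsmul_comp_eq_zero hM _)
      obtain ⟨z, rfl⟩ := lift_of_tf hM tfW _ z
      obtain ⟨x', hx'⟩ := ModP.exists_zsmul_of_comp_eq_zero hM (x - z ≫ (self R).ext v) (by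
        rw [← rdM, Preadditive.sub_comp, hz, Category.assoc, Category.assoc, rdM_nat, sub_self])
      refine ih x' (sub_eq_zero.1 (tfC k _ ?_))
      rw [smul_sub, ← mul_smul, ← pow_succ', hx, ← Preadditive.zsmul_comp, ← hx',
        Preadditive.sub_comp, Category.assoc, c.v_g, comp_zero, sub_zero, sub_self]
  · obtain ⟨n, z, hz⟩ := hk k x hx
    clear hx
    induction n generalizing z with
    | zero => exact ⟨z, by rw [← hz, pow_zero, one_smul]⟩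
    | succ n ih =>
      obtain ⟨z', hz'⟩ := sat k ((p : ℤ) ^ n • x) z (by rw [← mul_smul, ← pow_succ', hz])
      exact ih z' hz'
  · rintro ⟨z, rfl⟩
    rw [Category.assoc, c.v_g, comp_zero]

end Vale.Agent.P221X.EXI
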